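import Vale.Agent.P197.Saxl.Char0.Complete
import Vale.Agent.P197.Saxl.Char0.Cover
import Vale.Agent.P197.Saxl.Char0.Goal

/-!
# P197: Saxl's conjecture
-/

namespace Vale.Agent.Results.P197.Saxl

open Vale.Agent.P197.Saxl

theorem result : Goal.SaxlConjecture :=
  Goal.saxlConjecture_of_statement (saxl_of_pairNonzero Cover.pairNonzero_all)

end Vale.Agent.Results.P197.Saxl
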